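import Vale.Agent.P004F.Ed.Coc
import Vale.Agent.P004F.Pt.Kd
import Vale.Agent.P004F.Ra.Lv
import Vale.Agent.P004F.En.Sh

/-! # P004F, row END: control at `T = 0` -/

set_option autoImplicit false
set_option linter.all false

noncomputable section

namespace Vale.Agent.P004F.Ed

open NumberField Matrix
open Vale.Agent.P022 Vale.Agent.P022K
open Vale.Agent.P022K.G2 (In)
open Vale.Agent.P022D.W (dec conj_inP phi_mem exists_phi)
open Vale.Agent.P022.H443 (inP)
open Vale.Agent.P022E.GW (Ov Fb)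
open Vale.Agent.P027M.S (Inert)
open P004S (nu kn)
open P004T (ds TwoK)

/-- the tame relation for a cocycle of an unramified module -/
theorem tame {R : Type} [CommRing R] {l : ℕ} {P : Ideal (𝓞 Qb)} (o : Ov l P) (u : IsUnit (l : R))
    {Γ : Subgroup GQ} {a : GQ → M2 R} {x : GQ → Fin 2 → R}
    (hI : ∀ g ∈ inP P, g ∈ Γ ∧ a g = 1) (c : ∀ g ∈ Γ, ∀ h ∈ Γ, x (g * h) = x g + a g *ᵥ x h)
    (lc : ∃ W : Subgroup GQ, IsOpen (W : Set GQ) ∧ ∀ w ∈ W, x w = 0) {φ : GQ} (f : Fb l P φ)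
    (m : φ * φ ∈ Γ) {g : GQ} (hg : g ∈ inP P) : a (φ * φ) *ᵥ x g = (l : R) ^ 2 • x g := by
  obtain ⟨W, w1, w2⟩ := lc
  obtain ⟨U, hU, le⟩ := G2.ex_lv w1 W.one_mem
  have d := phi_mem o.1 o.2.1 f
  have ad : ∀ g ∈ inP P, ∀ h ∈ inP P, x (g * h) = x g + x h := fun g s h t => by
    rw [c g (hI g s).1 h (hI h t).1, (hI g s).2, one_mulVec]
  have pw : ∀ g ∈ inP P, ∀ n : ℕ, x (g ^ n) = (n : R) • x g := fun g s n => by
    induction n with
    | zero => simpa using w2 1 W.one_mem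
    | succ n ih => rw [pow_succ, ad _ (pow_mem s n) _ s, ih, Nat.cast_succ, add_smul, one_smul]
  have fr : ∀ j ∈ inP P, x (φ * j * φ⁻¹) = (l : R) • x j := fun j s => by
    have k := mul_mem (conj_inP d s) (inv_mem (pow_mem s l))
    obtain ⟨n, hn⟩ := En.wd_frob o f s U hU.nrm hU.opn
    have z := w2 _ (le hn)
    rw [pw _ k, Nat.cast_pow, (u.pow n).smul_eq_zero] at z
    have := ad _ k _ (pow_mem s l)
    rwa [inv_mul_cancel_right, z, zero_add, pw _ s] at this
  have k := hI _ (conj_inP (mul_mem d d) hg)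
  have e1 := c _ k.1 _ m
  rw [inv_mul_cancel_right, c _ m _ (hI g hg).1, k.2, one_mulVec, add_comm, add_left_inj] at e1
  rw [e1, sq, mul_smul, ← fr g hg, ← fr _ (conj_inP d hg)]
  simp only [mul_assoc, _root_.mul_inv_rev]

theorem det_sq {R : Type} [CommRing R] (B : M2 R) {l t : R} (h1 : B.trace = t) (h2 : B.det = l) :
    (B * B - l ^ 2 • (1 : M2 R)).det = l ^ 2 * ((l + 1) ^ 2 - t ^ 2) := by
  rw [trace_fin_two] at h1
  rw [det_fin_two] at h2
  subst h1 h2
  simp [det_fin_two, mul_apply, Fin.sum_univ_two]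
  ring

variable {e : Crv} (b : Fld e)

theorem rd_mul (g h : GQ) : e.rd (g * h) = e.rd g * e.rd h := by
  rw [Crv.rd, Crv.rd, Crv.rd, Ra.sd_mul, map_mul, smul_mul_smul_comm]

theorem rd_one {g : GQ} (h : nu (ds e.δ) g = 0) : e.rd g = e.r g := by
  rw [Crv.rd, Ra.sd_zero h, one_smul]

theorem rd_inert {l : ℕ} {P : Ideal (𝓞 Qb)} (o : Ov l P) (h : l ∉ e.S) {g : GQ} (hg : Inert P g) :
    e.rd g = 1 := (rd_one (Ra.nu_inert o h hg)).trans (e.r_inert o h hg)

theorem ac_coe (g : GQ) (v : Fin 2 → ℤ_[2]) :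
    P004S.ac e.rp (ds e.δ) g (fun i => (v i : ℚ_[2])) = fun i => ((e.rd g *ᵥ v) i : ℚ_[2]) := by
  funext i
  unfold P004S.ac P004S.sg Crv.rd sd
  rw [e.mt_rp, smul_mulVec]
  split_ifs <;> fin_cases i <;> simp [mulVec, dotProduct, Fin.sum_univ_two] <;>
    first | rfl | exact add_comm _ _

/-- the ramification at a good prime has bounded order -/
theorem kill {m n k q : ℕ} (h : b.Gp m n q) {P : Ideal (𝓞 Qb)} (o : Ov q P)
    {x : GQ → Fin 2 → ZMod (2 ^ k)} {T : Finset ℕ}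
    (c : Cc b.Γ T (fun g => (e.rd g).map (PadicInt.toZModPow k)) x) {g : GQ} (hg : Inert P g) :
    2 ^ m • x g = 0 := by
  obtain ⟨φ, f⟩ := exists_phi o.1 o.2.1 o.2.2
  have q2 := e.ne_two h.out
  have u : IsUnit (q : ZMod (2 ^ k)) := (ZMod.isUnit_iff_coprime _ _).2
    (Nat.Coprime.pow_right _ (Nat.coprime_two_right.2 (o.1.odd_of_ne_two q2)))
  have t := tame o u (fun g s => ⟨b.inert_mem o q2 h.cop s, by
    rw [rd_inert o h.out s, Matrix.map_one _ (map_zero _) (map_one _)]⟩) c.coc c.lc f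
    (by by_cases s : φ ∈ b.Γ; exacts [mul_mem s s, b.mul_out s s]) hg
  rw [rd_one (by rw [P004S.nu_mul, CharTwo.add_self_eq_zero]), map_mul, Matrix.map_mul,
    ← sub_eq_zero, ← one_mulVec (x g), mulVec_mulVec, mul_one, ← smul_mulVec, ← sub_mulVec] at t
  have d : (e.r φ).det = q := Subtype.ext (by
    have := (e.tr_fb o h.out f).2
    rw [P004S.ep, P004S.mt, Crv.rp, P004M.TE.rep_val, ← RingHom.map_det] at this
    exact this)
  have z := congrArg (adjugate ((e.r φ).map (PadicInt.toZModPow k) *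
    (e.r φ).map (PadicInt.toZModPow k) - (q : ZMod (2 ^ k)) ^ 2 • 1) *ᵥ ·) t
  simp only [mulVec_mulVec, adjugate_mul, mulVec_zero, smul_mulVec, one_mulVec] at z
  erw [det_sq ((e.r φ).map (PadicInt.toZModPow k)) (l := q) (t := (e.a q : ℤ)) (by
    rw [← AddMonoidHom.map_trace, show (e.r φ).trace = (e.a q : ℤ) from
      (e.bad q o.1 h.out).2.2 φ ⟨P, o.2.1, o.2.2, f⟩, map_intCast])
    (by rw [← RingHom.mapMatrix_apply, ← RingHom.map_det, d, map_natCast]), mul_smul,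
    (u.pow 2).smul_eq_zero] at z
  obtain ⟨w, hw⟩ := (ValuationRing.dvd_total ((((q : ℤ) + 1) ^ 2 - e.a q ^ 2 : ℤ) : ℤ_[2])
    (2 ^ m)).resolve_right fun s => h.gq ((PadicInt.pow_p_dvd_int_iff (p := 2) m _).1 s)
  have := congrArg (PadicInt.toZModPow k) hw
  rw [map_pow, map_ofNat, map_mul, map_intCast] at this
  push_cast at this
  rw [← Nat.cast_smul_eq_nsmul (ZMod (2 ^ k)), Nat.cast_pow, Nat.cast_ofNat, this, mul_comm,
    mul_smul, z, smul_zero]

theorem gd2 : Pr.Gd b.Γ e.S.toFinset fun g => (e.rd g).map PadicInt.toZMod where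
  opn := b.Γ_open
  idx := Ra.gk_idx b.iq b.cc
  cx := Ra.gk_cx b.iq
  two := List.mem_toFinset.2 e.two
  pr l h := Ra.S_prime (List.mem_toFinset.1 h)
  one := by rw [rd_one (P004S.nu_one _), map_one, Matrix.map_one _ (map_zero _) (map_one _)]
  mul g _ h _ := by rw [rd_mul, Matrix.map_mul]
  lc := ⟨e.rep.Kn 1 ⊓ kn (ds e.δ), (e.rep.Kn_open 1).inter (P004S.kn_open _), fun w _ m => by
    rw [rd_one m.2]; exact e.tr_one.1 m.1⟩
  unr g _ := fun ⟨l, h, P, o, i⟩ => by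
    rw [rd_inert o (fun s => h (List.mem_toFinset.2 s)) i, Matrix.map_one _ (map_zero _) (map_one _)]

end Ed

open Ed P004S P004T Vale.Agent.P022D.W Vale.Agent.P022K.G2 in
/-- **control at `T = 0`** -/
theorem end_row (hB : Pr.BND) : END := fun e b m h => by
  have hn : NoI e.rp := En.noi _
  have o2 := e.ov 2 e.two
  have le := b.le 2 e.two
  have e0 : -(b.δ' : ℤ) < 0 := neg_neg_of_pos (Int.natCast_pos.2 b.pos)
  obtain ⟨s, hs⟩ := En.ex_out e0
  have o := En.onek e.rep hn (ds_ne e.ok) e0.ne hs (fun g k => (b.kd.gk g).1 (le k)) h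
  obtain ⟨c₁, hc⟩ := gen (Γ := b.Γ) (ρ := e.rd)
    (I := (b.Γ : Set P022.GQ)ᶜ ∪ (In e.S.toFinset ∪ dec (e.P 2))) (by
      obtain ⟨C, hC⟩ := hB (Fin 2) _ _ _ (gd2 b)
      have := (hC Empty Empty ∅ (fun i => i.elim) (fun i => i.elim) (by simp)).1
      rw [Finset.union_empty] at this
      exact Set.Finite.of_finite_image (f := fun x => (x, (0 : Empty → ZMod 2)))
        ((Set.finite_coe_iff.1 this).subset (by
          rintro _ ⟨x, ⟨x1, x2, x3⟩, rfl⟩
          exact ⟨x1, fun g k => x3 g (.inl k), x2, fun g k => x3 g (.inr (.inl k)),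
            fun i => i.elim⟩)) fun x _ y _ k => congrArg Prod.fst k) fun z z' hz => by
      have k : ∀ u, u = z ∨ u = z' → Z1 e.rp (ds e.δ) (kn (-b.δ')) (fun g i => (u g i : ℚ_[2])) ∧
          ∀ g ∈ dec (e.P 2), (fun i => (u g i : ℚ_[2])) = 0 := fun u a => by
        obtain ⟨u1, u2, u3⟩ := hz u a
        rw [← b.Γ_eq]
        refine ⟨⟨continuousOn_pi.2 fun i => continuous_subtype_val.comp_continuousOn
          (continuousOn_pi.1 u1 i), fun g s j t => funext fun i => ?_⟩, fun g s => ?_⟩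
        · rw [ac_coe]; exact congrArg _ (congrFun (u2 g s j t) i)
        · rw [u3 g (.inr (.inr s))]; rfl
      have k1 := k z (.inl rfl)
      have k2 := k z' (.inr rfl)
      obtain ⟨x, y, n, v, hv⟩ := o _ _ k1.1 k2.1
        ⟨0, fun g s => by rw [ac_zero, sub_zero]; exact k1.2 g s⟩
        ⟨0, fun g s => by rw [ac_zero, sub_zero]; exact k2.2 g s⟩
      rw [← b.Γ_eq] at hv
      obtain rfl : v = 0 := hn 2 _ _ v o2 fun g s => by
        have := hv g (le s)
        rw [Pi.add_apply, Pi.smul_apply, Pi.smul_apply, k1.2 g s, k2.2 g s, smul_zero, smul_zero,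
          add_zero] at this
        exact sub_eq_zero.1 this.symm
      refine ⟨x, y, n, fun g i => ?_⟩
      by_cases s : g ∈ b.Γ
      · simpa [ac_zero] using congrFun (hv g s) i
      · simp [(hz z (.inl rfl)).2.2 g (.inl s), (hz z' (.inr rfl)).2.2 g (.inl s)]
  refine ⟨c₁ + m, fun k c hq x x' a a' d => ?_⟩
  have t : ∀ {y : P022.GQ → Fin 2 → ZMod (2 ^ k)},
      Cc b.Γ (b.T c) (fun g => (e.rd g).map (PadicInt.toZModPow k)) y →
      (∀ g ∈ dec (e.P 2), y g = 0) → Zc b.Γ ((b.Γ : Set P022.GQ)ᶜ ∪ (In e.S.toFinset ∪ dec (e.P 2)))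
        (fun g => (e.rd g).map (PadicInt.toZModPow k)) (2 ^ m • y) := fun {y} a d => by
    refine ⟨fun g s j t => ?_, a.lc.imp fun W w => ⟨w.1, fun g s => ?_⟩, ?_⟩
    · rw [Pi.smul_apply, Pi.smul_apply, Pi.smul_apply, a.coc g s j t, smul_add, Matrix.mulVec_smul]
      rfl
    · rw [Pi.smul_apply, w.2 g s, smul_zero]
    · rintro g (s | ⟨l, s, P, o, i⟩ | s) <;> rw [Pi.smul_apply]
      · rw [a.out g s, smul_zero]
      · by_cases u : l ∈ c.primeFactors
        · exact kill b (hq l u) o a i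
        · rw [a.unr g ⟨l, fun w => (Finset.mem_union.1 w).elim s u, P, o, i⟩, smul_zero]
      · rw [d g s, smul_zero]
  obtain ⟨α, β, n, z⟩ := hc k _ _ (t a fun g s => (d g s).1) (t a' fun g s => (d g s).2)
  refine ⟨α, β, n, ?_⟩
  rwa [smul_comm α, smul_comm β, ← smul_add, ← mul_smul, ← pow_add] at z

end Vale.Agent.P004F
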