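import Mathlib

/-! # P004F, row END: a saturated filtration of a compact group -/

set_option autoImplicit false
set_option linter.all false

open Set

namespace Vale.Agent.P004F.Ed

variable {ι : Type} {C : ℕ → AddSubgroup (ι → ℤ_[2])}

/-- even elements -/
def Ev (z : ι → ℤ_[2]) : Prop := ∃ w, z = (2 : ℤ) • w

section

variable (h0 : C 0 = ⊤) (hs : ∀ k z, (2 : ℤ) • z ∈ C (k + 1) ↔ z ∈ C k) (ha : Antitone C)
  {s : Set (ι → ℤ_[2])} (fs : s.Finite) (hf : ∀ z ∈ C 1, ∃ y ∈ s, Ev (z - y))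

include h0 hs ha fs hf

theorem cpt (k : ℕ) : IsCompact (C k : Set (ι → ℤ_[2])) := by
  induction k with
  | zero => rw [h0]; exact isCompact_univ
  | succ k ih =>
    have : ∀ y, ∃ z₀ ∈ C (k + 1), ∀ z ∈ C (k + 1), Ev (z - y) → Ev (z₀ - y) := fun y => by
      by_cases h : ∃ z ∈ C (k + 1), Ev (z - y)
      · exact h.imp fun z m => ⟨m.1, fun _ _ _ => m.2⟩
      · exact ⟨0, zero_mem _, fun z a b => (h ⟨z, a, b⟩).elim⟩
    choose f f1 f2 using this
    have e : (C (k + 1) : Set (ι → ℤ_[2])) = ⋃ y ∈ s, (fun w => f y + (2 : ℤ) • w) '' C k := by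
      refine Subset.antisymm (fun z hz => ?_) (iUnion₂_subset fun y _ => ?_)
      · obtain ⟨y, m, w, hw⟩ := hf z (ha (by omega) hz)
        obtain ⟨w', hw'⟩ := f2 y z hz ⟨w, hw⟩
        have e : z - f y = (2 : ℤ) • (w - w') := by linear_combination (norm := module) hw - hw'
        exact mem_iUnion₂.2 ⟨y, m, w - w', (hs _ _).1 (e ▸ sub_mem hz (f1 y)),
          (eq_add_of_sub_eq' e).symm⟩
      · rintro _ ⟨w, m, rfl⟩
        exact add_mem (f1 y) ((hs _ _).2 m)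
    rw [e]
    exact fs.isCompact_biUnion fun y _ => ih.image (by fun_prop)

theorem stab : ∃ c, ∀ z ∈ C c, ∃ x, (∀ k, x ∈ C k) ∧ Ev (z - x) := by
  have : ∀ y, ∃ c, ∀ z ∈ C c, Ev (z - y) → ∃ x, (∀ k, x ∈ C k) ∧ Ev (x - y) := fun y => by
    by_contra! h
    have cl : IsClosed {z : ι → ℤ_[2] | Ev (z - y)} := by
      have := (isCompact_range (f := fun w : ι → ℤ_[2] => (2 : ℤ) • w) (by fun_prop)).isClosed
      convert this.preimage (f := fun z => z - y) (by fun_prop) using 1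
      exact Set.ext fun z => exists_congr fun w => eq_comm
    have K := fun k => (cpt h0 hs ha fs hf k).inter_right cl
    obtain ⟨x, hx⟩ := IsCompact.nonempty_iInter_of_sequence_nonempty_isCompact_isClosed
      (fun k => (C k : Set (ι → ℤ_[2])) ∩ {z | Ev (z - y)})
      (fun k => inter_subset_inter_left _ (ha k.le_succ))
      (fun k => (h k).imp fun z m => ⟨m.1, m.2.1⟩) (K 0) fun k => (K k).isClosed
    obtain ⟨_, -, -, m⟩ := h 0
    exact m x (fun k => (mem_iInter.1 hx k).1) (mem_iInter.1 hx 0).2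
  choose c hc using this
  obtain ⟨n, hn⟩ := (fs.image c).bddAbove
  refine ⟨n + 1, fun z hz => ?_⟩
  obtain ⟨y, m, w, hw⟩ := hf z (ha (by omega) hz)
  obtain ⟨x, a, w', hw'⟩ := hc y z (ha ((hn ⟨y, m, rfl⟩).trans n.le_succ) hz) ⟨w, hw⟩
  exact ⟨x, a, w - w', by linear_combination (norm := module) hw - hw'⟩

end

theorem cyc (hs : ∀ k z, (2 : ℤ) • z ∈ C (k + 1) ↔ z ∈ C k) (ha : Antitone C) {c : ℕ}
    (H : ∀ z ∈ C c, ∀ z' ∈ C c, Ev z ∨ Ev z' ∨ Ev (z - z')) (n : ℕ) : ∀ i j, i + j = n →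
    ∀ y ∈ C (c + i), ∀ y' ∈ C (c + j), ∃ α β : ℤ, ¬ (2 ∣ α ∧ 2 ∣ β) ∧
      ∃ w, (2 ^ j * α) • y + (2 ^ i * β) • y' = (2 : ℤ) ^ (i + j) • w := by
  induction n using Nat.strong_induction_on with | _ n ih => ?_
  rintro (_ | i) j rfl y hy y' hy'
  · exact ⟨1, 0, by omega, y, by simp⟩
  obtain _ | j := j
  · exact ⟨0, 1, by omega, y', by simp⟩
  rcases H y (ha (by omega) hy) y' (ha (by omega) hy') with ⟨u, rfl⟩ | ⟨u, rfl⟩ | ⟨u, e⟩
  · obtain ⟨α, β, a, w, b⟩ := ih _ (by omega) i (j + 1) rfl u ((hs _ _).1 hy) y' hy'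
    exact ⟨α, β, a, w, by linear_combination (norm := module) (2 : ℤ) • b⟩
  · obtain ⟨α, β, a, w, b⟩ := ih _ (by omega) (i + 1) j rfl y hy u ((hs _ _).1 hy')
    exact ⟨α, β, a, w, by linear_combination (norm := module) (2 : ℤ) • b⟩
  rcases le_total i j with k | k <;> obtain ⟨d, rfl⟩ := Nat.exists_eq_add_of_le k
  · obtain ⟨α, β, a, w, b⟩ := ih _ (by omega) i (i + d + 1) rfl u
      ((hs _ _).1 (e ▸ sub_mem hy (ha (by omega) hy'))) y' hy'
    refine ⟨α, β - 2 ^ d * α, fun m => a ⟨m.1, ?_⟩, w, ?_⟩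
    · simpa using m.2.add (m.1.mul_left (2 ^ d))
    · linear_combination (norm := module) (2 : ℤ) • b + (2 ^ (i + d + 1) * α : ℤ) • e
  · obtain ⟨α, β, a, w, b⟩ := ih _ (by omega) (j + d + 1) j rfl y hy u
      ((hs _ _).1 (e ▸ sub_mem (ha (by omega) hy) hy'))
    refine ⟨α + 2 ^ d * β, -β, fun m => a ⟨?_, dvd_neg.1 m.2⟩, w, ?_⟩
    · simpa using m.1.sub ((dvd_neg.1 m.2).mul_left (2 ^ d))
    · linear_combination (norm := module) (2 : ℤ) • b + (2 ^ (j + d + 1) * β : ℤ) • e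

theorem ev_or (t : ℤ_[2]) : (∃ u, t = 2 * u) ∨ ∃ u, t - 1 = 2 * u := by
  have h : ∀ x : ℤ_[2], PadicInt.toZMod x = 0 → ∃ u, x = 2 * u := fun x k => by
    rwa [← RingHom.mem_ker, PadicInt.ker_toZMod, PadicInt.maximalIdeal_eq_span_p,
      Ideal.mem_span_singleton] at k
  have : ∀ a : ZMod 2, a = 0 ∨ a - 1 = 0 := by decide
  exact (this (PadicInt.toZMod t)).imp (h t) fun k => h _ (by rwa [map_sub, map_one])

theorem ev_of {z z' : ι → ℤ_[2]} {x y : ℚ_[2]} (h : x ≠ 0) (k : ‖y‖ ≤ ‖x‖)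
    (e : ∀ i, x * z i + y * z' i = 0) : Ev z ∨ Ev (z - z') := by
  let t : ℤ_[2] := ⟨-y / x, by
    rw [norm_div, norm_neg]; exact div_le_one_of_le₀ k (norm_nonneg _)⟩
  have : ∀ i, z i = t * z' i := fun i => Subtype.ext (by
    change (z i : ℚ_[2]) = -y / x * z' i
    field_simp
    linear_combination e i)
  refine (ev_or t).imp (fun ⟨u, m⟩ => ⟨u • z', funext fun i => ?_⟩)
    fun ⟨u, m⟩ => ⟨u • z', funext fun i => ?_⟩
  · simp [this, m, mul_assoc]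
  · simp only [Pi.sub_apply, this, Pi.smul_apply, smul_eq_mul, zsmul_eq_mul, Int.cast_ofNat]
    linear_combination z' i * m

/-- **rank one in the limit gives rank one at all levels** -/
theorem abs (h0 : C 0 = ⊤) (hs : ∀ k z, (2 : ℤ) • z ∈ C (k + 1) ↔ z ∈ C k) (ha : Antitone C)
    {s : Set (ι → ℤ_[2])} (fs : s.Finite) (hf : ∀ z ∈ C 1, ∃ y ∈ s, Ev (z - y))
    (h1 : ∀ z z', (∀ k, z ∈ C k) → (∀ k, z' ∈ C k) →
      ∃ x y : ℚ_[2], ¬ (x = 0 ∧ y = 0) ∧ ∀ i, x * z i + y * z' i = 0) :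
    ∃ c : ℕ, ∀ k, ∀ z ∈ C k, ∀ z' ∈ C k, ∃ α β : ℤ, ¬ (2 ∣ α ∧ 2 ∣ β) ∧
      ∃ w, (2 : ℤ) ^ c • (α • z + β • z') = (2 : ℤ) ^ k • w := by
  obtain ⟨c, hc⟩ := stab h0 hs ha fs hf
  have H : ∀ z ∈ C c, ∀ z' ∈ C c, Ev z ∨ Ev z' ∨ Ev (z - z') := fun z m z' m' => by
    obtain ⟨u, a, w, b⟩ := hc z m
    obtain ⟨u', a', w', b'⟩ := hc z' m'
    obtain ⟨x, y, n, e⟩ := h1 u u' a a'
    rcases le_total ‖y‖ ‖x‖ with k | k
    · rcases ev_of (fun x0 => n ⟨x0, norm_le_zero_iff.1 (by simpa [x0] using k)⟩) k e with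
        ⟨v, f⟩ | ⟨v, f⟩
      · exact .inl ⟨w + v, by linear_combination (norm := module) b + f⟩
      · exact .inr (.inr ⟨w - w' + v, by linear_combination (norm := module) b - b' + f⟩)
    · rcases ev_of (fun y0 => n ⟨norm_le_zero_iff.1 (by simpa [y0] using k), y0⟩) k
        (fun i => (add_comm _ _).trans (e i)) with ⟨v, f⟩ | ⟨v, f⟩
      · exact .inr (.inl ⟨w' + v, by linear_combination (norm := module) b' + f⟩)
      · exact .inr (.inr ⟨w - w' - v, by linear_combination (norm := module) b - b' - f⟩)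
  refine ⟨c, fun k z m z' m' => ?_⟩
  rcases le_total k c with h | h <;> obtain ⟨i, rfl⟩ := Nat.exists_eq_add_of_le h
  · exact ⟨1, 0, by omega, (2 : ℤ) ^ i • z, by module⟩
  · obtain ⟨α, β, a, w, b⟩ := cyc hs ha H _ i i rfl z m z' m'
    refine ⟨α, β, a, w, smul_right_injective _ (pow_ne_zero i (two_ne_zero' ℤ)) ?_⟩
    linear_combination (norm := module) (2 : ℤ) ^ c • b

end Vale.Agent.P004F.Ed
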