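import Vale.Agent.P004F.Ed.Abs

/-! # P004F, row END: cocycles modulo powers of two -/

set_option autoImplicit false
set_option linter.all false

open Set Matrix Filter Topology

noncomputable section

namespace Vale.Agent.P004F.Ed

variable {G : Type} [Group G] [TopologicalSpace G] (Γ : Subgroup G) (I : Set G)

/-- locally constant cocycles which vanish on `I` -/
def Zc {R : Type} [CommRing R] (a : G → Matrix (Fin 2) (Fin 2) R) (x : G → Fin 2 → R) : Prop :=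
  (∀ g ∈ Γ, ∀ h ∈ Γ, x (g * h) = x g + a g *ᵥ x h) ∧
    (∃ W : Subgroup G, IsOpen (W : Set G) ∧ ∀ w ∈ W, x w = 0) ∧ ∀ g ∈ I, x g = 0

variable (ρ : G → Matrix (Fin 2) (Fin 2) ℤ_[2])

/-- the defect -/
def df (z : G × Fin 2 → ℤ_[2]) (g h : G) (i : Fin 2) : ℤ_[2] :=
  z (g * h, i) - (z (g, i) + (ρ g i 0 * z (h, 0) + ρ g i 1 * z (h, 1)))

/-- the lifts -/
def Ck (k : ℕ) : AddSubgroup (G × Fin 2 → ℤ_[2]) where
  carrier := {z | (∀ g ∈ Γ, ∀ h ∈ Γ, ∀ i, 2 ^ k ∣ df ρ z g h i) ∧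
    (∃ W : Subgroup G, IsOpen (W : Set G) ∧ ∀ w ∈ W, ∀ i, 2 ^ k ∣ z (w, i)) ∧
    ∀ g ∈ I, ∀ i, 2 ^ k ∣ z (g, i)}
  add_mem' {a b} := fun ⟨a1, ⟨W, a2, a3⟩, a4⟩ ⟨b1, ⟨W', b2, b3⟩, b4⟩ =>
    ⟨fun g m h n i => by
      convert (a1 g m h n i).add (b1 g m h n i) using 1
      simp only [df, Pi.add_apply]; ring,
    ⟨W ⊓ W', a2.inter b2, fun w m i => (a3 w m.1 i).add (b3 w m.2 i)⟩,
    fun g m i => (a4 g m i).add (b4 g m i)⟩
  zero_mem' := ⟨fun _ _ _ _ _ => by simp [df], ⟨⊤, isOpen_univ, fun _ _ _ => dvd_zero _⟩,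
    fun _ _ _ => dvd_zero _⟩
  neg_mem' {a} := fun ⟨a1, ⟨W, a2, a3⟩, a4⟩ =>
    ⟨fun g m h n i => by
      convert (a1 g m h n i).neg_right using 1
      simp only [df, Pi.neg_apply]; ring,
    ⟨W, a2, fun w m i => (a3 w m i).neg_right⟩, fun g m i => (a4 g m i).neg_right⟩

variable {Γ I ρ}

theorem ck_iff {R : Type} [CommRing R] {π : ℤ_[2] →+* R} {k : ℕ} (h : ∀ x, π x = 0 ↔ 2 ^ k ∣ x)
    (z : G × Fin 2 → ℤ_[2]) :
    z ∈ Ck Γ I ρ k ↔ Zc Γ I (fun g => (ρ g).map π) fun g i => π (z (g, i)) := by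
  refine and_congr (forall₄_congr fun g _ j _ => ?_) (by simp only [funext_iff, ← h]; rfl)
  simp only [funext_iff, ← h, df, map_sub, sub_eq_zero, map_add, map_mul, Pi.add_apply, mulVec,
    dotProduct, Fin.sum_univ_two, map_apply]

theorem ker_pow (k : ℕ) (x : ℤ_[2]) : PadicInt.toZModPow k x = 0 ↔ 2 ^ k ∣ x := by
  rw [← RingHom.mem_ker, PadicInt.ker_toZModPow, Ideal.mem_span_singleton]; rfl

theorem ker_one (x : ℤ_[2]) : PadicInt.toZMod x = 0 ↔ 2 ^ 1 ∣ x := by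
  rw [← RingHom.mem_ker, PadicInt.ker_toZMod, PadicInt.maximalIdeal_eq_span_p,
    Ideal.mem_span_singleton, pow_one]; rfl

theorem zero_of {x : ℤ_[2]} (h : ∀ k, 2 ^ k ∣ x) : x = 0 :=
  PadicInt.ext_of_toZModPow.1 fun k => ((ker_pow k x).2 (h k)).trans (map_zero _).symm

theorem ck_two (k : ℕ) (z : G × Fin 2 → ℤ_[2]) :
    (2 : ℤ) • z ∈ Ck Γ I ρ (k + 1) ↔ z ∈ Ck Γ I ρ k := by
  have d : ∀ x : ℤ_[2], 2 ^ (k + 1) ∣ 2 * x ↔ 2 ^ k ∣ x := fun x => by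
    rw [pow_succ', mul_dvd_mul_iff_left two_ne_zero]
  have e : ∀ p, ((2 : ℤ) • z) p = 2 * z p := fun p => by simp
  refine and_congr (forall₅_congr fun g _ h _ i => ?_) (by simp only [e, d])
  rw [show df ρ ((2 : ℤ) • z) g h i = 2 * df ρ z g h i by simp only [df, e]; ring, d]

theorem ck_anti : Antitone (Ck Γ I ρ) := fun k n m z ⟨a1, ⟨W, a2, a3⟩, a4⟩ =>
  have p := pow_dvd_pow (2 : ℤ_[2]) m
  ⟨fun g m h n i => p.trans (a1 g m h n i), ⟨W, a2, fun w m i => p.trans (a3 w m i)⟩,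
    fun g m i => p.trans (a4 g m i)⟩

theorem ck_one {z : G × Fin 2 → ℤ_[2]} (m : z ∈ Ck Γ I ρ 1) :
    ∃ y ∈ (fun (x : G → Fin 2 → ZMod 2) (p : G × Fin 2) => ((x p.1 p.2).val : ℤ_[2])) ''
      {x | Zc Γ I (fun g => (ρ g).map PadicInt.toZMod) x}, Ev (z - y) := by
  refine ⟨_, ⟨fun g i => PadicInt.toZMod (z (g, i)), (ck_iff ker_one z).1 m, rfl⟩, ?_⟩
  have : ∀ p, 2 ^ 1 ∣ z p - ((PadicInt.toZMod (z p)).val : ℤ_[2]) := fun p => (ker_one _).1 (by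
    rw [map_sub, map_natCast, ZMod.natCast_zmod_val, sub_self])
  choose w hw using this
  exact ⟨w, funext fun p => (hw p).trans (by simp)⟩

theorem ck_lim [IsTopologicalGroup G] {v : G × Fin 2 → ℤ_[2]} (m : ∀ k, v ∈ Ck Γ I ρ k)
    (u : G → Fin 2 → ℤ_[2]) (hu : u = fun g i => v (g, i)) : ContinuousOn u Γ ∧
      (∀ g ∈ Γ, ∀ h ∈ Γ, u (g * h) = u g + ρ g *ᵥ u h) ∧ ∀ g ∈ I, u g = 0 := by
  subst hu
  have c : ∀ g ∈ Γ, ∀ h ∈ Γ, ∀ i, df ρ v g h i = 0 := fun g a h b i =>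
    zero_of fun k => (m k).1 g a h b i
  refine ⟨continuousOn_pi.2 fun i g a => Metric.tendsto_nhds.2 fun ε hε => ?_,
    fun g a h b => funext fun i => ?_,
    fun g a => funext fun i => zero_of fun k => (m k).2.2 g a i⟩
  · obtain ⟨k, hk⟩ := PadicInt.exists_pow_neg_lt 2 hε
    obtain ⟨W, w1, w2⟩ := (m k).2.1
    filter_upwards [self_mem_nhdsWithin, mem_nhdsWithin_of_mem_nhds
      ((w1.preimage (continuous_const_mul g⁻¹)).mem_nhds (by simpa using one_mem W))]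
      with x hx n
    have := c g a _ (mul_mem (inv_mem a) hx) i
    rw [df, mul_inv_cancel_left, ← sub_sub, sub_eq_zero] at this
    rw [dist_eq_norm, this]
    exact ((PadicInt.norm_le_pow_iff_mem_span_pow _ k).2 (Ideal.mem_span_singleton.2
      (((w2 _ n 0).mul_left _).add ((w2 _ n 1).mul_left _)))).trans_lt hk
  · simpa only [mulVec, dotProduct, df, sub_eq_zero, Pi.add_apply, Fin.sum_univ_two] using
      c g a h b i

theorem gen [IsTopologicalGroup G]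
    (hf : {x | Zc Γ I (fun g => (ρ g).map PadicInt.toZMod) x}.Finite)
    (h1 : ∀ z z' : G → Fin 2 → ℤ_[2], (∀ u, u = z ∨ u = z' → ContinuousOn u Γ ∧
      (∀ g ∈ Γ, ∀ h ∈ Γ, u (g * h) = u g + ρ g *ᵥ u h) ∧ ∀ g ∈ I, u g = 0) →
      ∃ x y : ℚ_[2], ¬ (x = 0 ∧ y = 0) ∧ ∀ g i, x * z g i + y * z' g i = 0) :
    ∃ c : ℕ, ∀ (k : ℕ) (x x' : G → Fin 2 → ZMod (2 ^ k)),
      Zc Γ I (fun g => (ρ g).map (PadicInt.toZModPow k)) x →
      Zc Γ I (fun g => (ρ g).map (PadicInt.toZModPow k)) x' →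
      ∃ α β : ℤ, ¬ (2 ∣ α ∧ 2 ∣ β) ∧ 2 ^ c • (α • x + β • x') = 0 := by
  obtain ⟨c, hc⟩ := abs (C := Ck Γ I ρ)
    (eq_top_iff.2 fun z _ => ⟨by simp, ⟨⊤, isOpen_univ, by simp⟩, by simp⟩) ck_two ck_anti
    (hf.image _) (fun z => ck_one) fun z z' m m' =>
      (h1 (fun g i => z (g, i)) (fun g i => z' (g, i)) fun u hu =>
        hu.elim (ck_lim m u) (ck_lim m' u)).imp fun x =>
        Exists.imp fun y k => ⟨k.1, fun p => k.2 p.1 p.2⟩
  refine ⟨c, fun k x x' a a' => ?_⟩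
  have e : ∀ y : G → Fin 2 → ZMod (2 ^ k), Zc Γ I (fun g => (ρ g).map (PadicInt.toZModPow k)) y →
      (fun p => ((y p.1 p.2).val : ℤ_[2])) ∈ Ck Γ I ρ k := fun y h =>
    (ck_iff (ker_pow k) _).2 (by simpa only [map_natCast, ZMod.natCast_zmod_val] using h)
  obtain ⟨α, β, n, w, hw⟩ := hc k _ (e x a) _ (e x' a')
  refine ⟨α, β, n, funext fun g => funext fun i => ?_⟩
  have := (ker_pow k _).2 ⟨w (g, i), (congrFun hw (g, i)).trans (by simp)⟩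
  simp only [Pi.smul_apply, Pi.add_apply, map_zsmul, map_add, map_natCast,
    ZMod.natCast_zmod_val, Pi.zero_apply] at this ⊢
  rw [← this, ← natCast_zsmul, Nat.cast_pow, Nat.cast_ofNat]

end Vale.Agent.P004F.Ed
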